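import Vale.Agent.Lib.P062.B.Main

open Vale.Agent.Lib.P062

/-- Snaky is a winner, already on finite boards: in the achievement game for Snaky with no handicap,
Maker (who moves first) has a winning strategy on the initially empty board `ℤ × ℤ`, and more generally
on every initially empty board `Bd` (finite or infinite) that contains a 25 x 25 square of cells, for
example on the `n x n` board for every `n ≥ 25`; on a board only its cells may be claimed and only
copies inside it count. -/
theorem Vale.Agent.Results.P062.MakerWinsBoard25.result :
    MakerWins Set.univ ∅ ∅ ∧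
      ∀ (Bd : Set (ℤ × ℤ)) (t : ℤ × ℤ),
        (∀ c : ℤ × ℤ, |c.1 - t.1| ≤ 12 → |c.2 - t.2| ≤ 12 → c ∈ Bd) → MakerWins Bd ∅ ∅ :=
  ⟨B.snaky_univ, B.snaky_square⟩
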