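import Vale.Agent.Lib.P062.FullThm

open Vale.Agent.Lib.P062

/-- Snaky is a winner: in the achievement game for Snaky on the initially empty board `ℤ × ℤ`, with no
handicap, Maker (who moves first) has a winning strategy, i.e. can force an allowed copy of Snaky after
finitely many turns against every legal play of Breaker. -/
theorem Vale.Agent.Results.P062.MakerWinsPlane.result : MakerWins Set.univ ∅ ∅ :=
  snaky_plane
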