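import Vale.Agent.Lib.P062.RedThm

open Vale.Agent.Lib.P062

/-- Snaky on the empty board `ℤ × ℤ`, no handicap. (1) Maker, owning one cell `a`, wins against every
first Breaker stone `d` that does not share an edge with `a`. (2) After Maker `(0,0)`, Breaker `(1,0)`,
Maker `(0,1)`, Maker wins against every second Breaker stone other than `(0,2)`. (3) Hence, if Maker
wins from the single position Maker `{(0,0),(0,1)}`, Breaker `{(1,0),(0,2)}`, Maker to move, then
Maker wins the game from the empty board. -/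
theorem Vale.Agent.Results.P062.OnePosition.result :
    (∀ a d : ℤ × ℤ, d ≠ a →
        ¬ ((d.1 = a.1 ∧ (d.2 = a.2 - 1 ∨ d.2 = a.2 + 1)) ∨ (d.2 = a.2 ∧ (d.1 = a.1 - 1 ∨ d.1 = a.1 + 1))) →
        MakerWins Set.univ {a} {d}) ∧
      (∀ e : ℤ × ℤ, e ≠ (0, 0) → e ≠ (0, 1) → e ≠ (1, 0) → e ≠ (0, 2) →
        MakerWins Set.univ {(0, 0), (0, 1)} {(1, 0), e}) ∧
      (MakerWins Set.univ {(0, 0), (0, 1)} {(1, 0), (0, 2)} → MakerWins Set.univ ∅ ∅) :=
  ⟨partThm, one_replies, one_reduction⟩
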