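import Vale.Agent.Lib.P062.Strip5

open Vale.Agent.Lib.P062

/-- Breaker wins the Snaky achievement game inside the strip of height five: on every board contained
in `ℤ × {0, 1, 2, 3, 4}` Maker has no winning strategy, and on the whole strip Breaker has a strategy
that always answers legally and prevents Maker from ever owning an allowed copy of Snaky. -/
theorem Vale.Agent.Results.P062.StripFive.result :
    (∀ Bd : Set (ℤ × ℤ), Bd ⊆ {c : ℤ × ℤ | 0 ≤ c.2 ∧ c.2 < 5} → ¬ MakerWins Bd ∅ ∅) ∧
      ∃ σ, BreakerSafe {c : ℤ × ℤ | 0 ≤ c.2 ∧ c.2 < 5} σ :=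
  strip5_breaker
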